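import Vale.Agent.helper7.StarOrder

/-!
Both halves of the problem in an averaged form with constants independent of the length `N`:
signs for arbitrary weights on the times, and an order of a zero sum family for the uniform average.
-/

theorem Vale.Agent.Results.P262.AverageOrder.result :
    (∀ (d N : ℕ) (v : Fin N → EuclideanSpace ℝ (Fin d)) (w : Fin N → ℝ),
      (∀ i, ‖v i‖ ≤ 1) → (∀ i, 0 ≤ w i) →
      ∃ ε : Fin N → ℝ, (∀ i, ε i = 1 ∨ ε i = -1) ∧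
        ∑ k, w k * Real.exp (‖∑ i ∈ Finset.Iic k, ε i • v i‖ ^ 2 / 50) ≤
          (2 : ℝ) ^ ((d : ℝ) / 2) * ∑ k, w k ∧
        ∑ k, w k * ‖∑ i ∈ Finset.Iic k, ε i • v i‖ ^ 2 ≤ 18 * (d : ℝ) * ∑ k, w k) ∧
    (∀ (d N : ℕ) (v : Fin N → EuclideanSpace ℝ (Fin d)),
      (∀ i, ‖v i‖ ≤ 1) → ∑ i, v i = 0 →
      ∃ π : Equiv.Perm (Fin N),
        ∑ k, Real.exp (‖∑ i ∈ Finset.Iic k, v (π i)‖ ^ 2 / 50) ≤
          (N : ℝ) * (2 : ℝ) ^ ((d : ℝ) / 2) ∧
        ∑ k, ‖∑ i ∈ Finset.Iic k, v (π i)‖ ^ 2 ≤ 18 * (d : ℝ) * (N : ℝ)) := by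
  constructor
  · intro d N v w hv hw
    obtain ⟨ε, hε, h⟩ := Vale.Agent.helper7.exp_signs_fin v w hv hw
    exact ⟨ε, hε, h, Vale.Agent.helper7.second_moment_of_exp _ w hw h⟩
  · intro d N v hv hz
    obtain ⟨π, hπ⟩ := Vale.Agent.helper7.exists_good_order v hv hz
    have h1 : ∑ k, Real.exp (‖∑ i ∈ Finset.Iic k, v (π i)‖ ^ 2 / 50) ≤
        (N : ℝ) * (2 : ℝ) ^ ((d : ℝ) / 2) := hπ
    refine ⟨π, h1, ?_⟩
    have h2 := Vale.Agent.helper7.second_moment_of_exp (d := d)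
      (fun k : Fin N => ‖∑ i ∈ Finset.Iic k, v (π i)‖ ^ 2) (fun _ => 1) (fun _ => zero_le_one)
      (by
        simp only [one_mul, Finset.sum_const, Finset.card_univ, Fintype.card_fin, nsmul_eq_mul,
          mul_one]
        linarith [h1])
    simpa using h2
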