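import Vale.Agent.helper7.StarMasterFin

/-!
Master inequality: for arbitrary convex nonnegative costs, one for each time, there are signs whose
total cost along the partial sums is at most the total Gaussian expectation of the costs.
-/

theorem Vale.Agent.Results.P262.ConvexCosts.result :
    ∀ (d N : ℕ) (v : Fin N → EuclideanSpace ℝ (Fin d))
      (ψ : Fin N → EuclideanSpace ℝ (Fin d) → ℝ),
      (∀ i, ‖v i‖ ≤ 1) → (∀ k, ConvexOn ℝ Set.univ (ψ k)) → (∀ k x, 0 ≤ ψ k x) →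
      ∃ ε : Fin N → ℝ, (∀ i, ε i = 1 ∨ ε i = -1) ∧
        ENNReal.ofReal (∑ k, ψ k (∑ i ∈ Finset.Iic k, ε i • v i)) *
          ∫⁻ x : EuclideanSpace ℝ (Fin d), ENNReal.ofReal (Real.exp (-((1 / 25 : ℝ) * ‖x‖ ^ 2))) ≤
        ∑ k, ∫⁻ x : EuclideanSpace ℝ (Fin d),
          ENNReal.ofReal (ψ k x * Real.exp (-((1 / 25 : ℝ) * ‖x‖ ^ 2))) := by
  intro d N v ψ hv hψ hψ0
  exact Vale.Agent.helper7.master_signs_fin v ψ hv hψ hψ0
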