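import Vale.Agent.Results.P262.SteinitzLog
import Vale.Agent.Results.P262.AverageOrder
import Vale.Agent.Results.P262.ConvexCosts

/-!
All the results on the two constants in one statement: the Steinitz bound
`S_2(d) ≤ 1000 * sqrt (d * log (d + 1))`, the weighted average bounds for signs, the uniform average
bounds for an order of a zero sum family, and the inequality for convex costs along signed partial
sums. No constant depends on the length `N`.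
-/

theorem Vale.Agent.Results.P262.Combined.result :
    (∀ (d : ℕ), 1 ≤ d → ∀ (N : ℕ) (v : Fin N → EuclideanSpace ℝ (Fin d)),
      (∀ i, ‖v i‖ ≤ 1) → ∑ i, v i = 0 →
      ∃ π : Equiv.Perm (Fin N), ∀ k : Fin N,
        ‖∑ i ∈ Finset.Iic k, v (π i)‖ ≤ 1000 * Real.sqrt ((d : ℝ) * Real.log ((d : ℝ) + 1))) ∧
    (∀ (d N : ℕ) (v : Fin N → EuclideanSpace ℝ (Fin d)) (w : Fin N → ℝ),
      (∀ i, ‖v i‖ ≤ 1) → (∀ i, 0 ≤ w i) →
      ∃ ε : Fin N → ℝ, (∀ i, ε i = 1 ∨ ε i = -1) ∧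
        ∑ k, w k * Real.exp (‖∑ i ∈ Finset.Iic k, ε i • v i‖ ^ 2 / 50) ≤
          (2 : ℝ) ^ ((d : ℝ) / 2) * ∑ k, w k ∧
        ∑ k, w k * ‖∑ i ∈ Finset.Iic k, ε i • v i‖ ^ 2 ≤ 18 * (d : ℝ) * ∑ k, w k) ∧
    (∀ (d N : ℕ) (v : Fin N → EuclideanSpace ℝ (Fin d)),
      (∀ i, ‖v i‖ ≤ 1) → ∑ i, v i = 0 →
      ∃ π : Equiv.Perm (Fin N),
        ∑ k, Real.exp (‖∑ i ∈ Finset.Iic k, v (π i)‖ ^ 2 / 50) ≤
          (N : ℝ) * (2 : ℝ) ^ ((d : ℝ) / 2) ∧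
        ∑ k, ‖∑ i ∈ Finset.Iic k, v (π i)‖ ^ 2 ≤ 18 * (d : ℝ) * (N : ℝ)) ∧
    (∀ (d N : ℕ) (v : Fin N → EuclideanSpace ℝ (Fin d))
      (ψ : Fin N → EuclideanSpace ℝ (Fin d) → ℝ),
      (∀ i, ‖v i‖ ≤ 1) → (∀ k, ConvexOn ℝ Set.univ (ψ k)) → (∀ k x, 0 ≤ ψ k x) →
      ∃ ε : Fin N → ℝ, (∀ i, ε i = 1 ∨ ε i = -1) ∧
        ENNReal.ofReal (∑ k, ψ k (∑ i ∈ Finset.Iic k, ε i • v i)) *
          ∫⁻ x : EuclideanSpace ℝ (Fin d), ENNReal.ofReal (Real.exp (-((1 / 25 : ℝ) * ‖x‖ ^ 2))) ≤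
        ∑ k, ∫⁻ x : EuclideanSpace ℝ (Fin d),
          ENNReal.ofReal (ψ k x * Real.exp (-((1 / 25 : ℝ) * ‖x‖ ^ 2)))) :=
  ⟨fun d hd N v hv hz => Vale.Agent.Results.P262.SteinitzLog.result d hd N v hv hz,
    Vale.Agent.Results.P262.AverageOrder.result.1,
    Vale.Agent.Results.P262.AverageOrder.result.2,
    Vale.Agent.Results.P262.ConvexCosts.result⟩
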