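import Vale.Agent.helper7.St.Final

/-!
The Euclidean Steinitz constant satisfies `S_2(d) ≤ 1000 * sqrt (d * log (d + 1))`.
The bound does not depend on the length of the family.
-/

theorem Vale.Agent.Results.P262.SteinitzLog.result (d : ℕ) (hd : 1 ≤ d) (N : ℕ)
    (v : Fin N → EuclideanSpace ℝ (Fin d)) (hv : ∀ i, ‖v i‖ ≤ 1) (hz : ∑ i, v i = 0) :
    ∃ π : Equiv.Perm (Fin N), ∀ k : Fin N,
      ‖∑ i ∈ Finset.Iic k, v (π i)‖ ≤ 1000 * Real.sqrt ((d : ℝ) * Real.log ((d : ℝ) + 1)) :=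
  Vale.Agent.helper7.St.steinitz_fin hd v hv hz
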